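import Vale.Agent.P352.R2.H104.Main

namespace Vale.Agent.Results.P352.OneConstant

open MeasureTheory Filter Topology UniformSpace
open Vale.Agent.P352.GF Vale.Agent.P352.H246 Vale.Agent.P352.H496 Vale.Agent.P352.H15
open Vale.Agent.P352.H755 Vale.Agent.P352.H746 Vale.Agent.P352.R2.H104

/-- Let `T` be the stress tensor and `J` a virial current of the scale-invariant theory `Q`, and
suppose that the charges of `T` and `J` on null hyperplanes exist. There is exactly one covariant
Hilbert space valued distribution `l` of dimension two with `3 □ l = tr T Ω`, and `Q` is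
conformally invariant (`CI`) if and only if `l` is hermitian on the polynomials in the fields at
spacelike distance. If in addition there are local algebras and covariant null deformations `S a`
with generators `G a`, then `Q` is conformally invariant if and only if one number `k`
vanishes: `k` is the coefficient of the only undetermined term of the on-shell two dilaton
amplitudes. Equivalently: these amplitudes are crossing symmetric; the two orders of one such
amplitude, with sources for which the explicit integral below does not vanish, are equal; `l` is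
invariant under the null deformations; `tr T = 3 □ Λ` for a local field `Λ` in the sense of
sesquilinear forms; one vector `l(f)` belongs to the domain of the fields or to the form domain of
one `G a`; the first order response of `l` to one `S a` is a Hilbert space valued field. -/
theorem result {D : Type*} [NormedAddCommGroup D] [InnerProductSpace ℂ D] (Q : Theory D)
    (T : Ix → Ix → Fld D) (hT : Q.IsStress T) (J : Ix → Fld D) (hJ : IsVirial Q T J)
    (A : (V → V) → D → D) (K : V → D → D) (h : NullCharges Q T J A K) :
    ∃ l : Fn → Completion D, IsPot Q T l ∧ (∀ l', IsPot Q T l' → ∀ f, IsTest f → l' f = l f) ∧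
      (HermPot Q l ↔ CI Q T) ∧
      ∀ (H : D → D) (alg : Set V → Set (D → D)) (S : V → ℝ → D → D) (G : V → D → D),
        CNet Q H alg S → Gnr Q alg S G →
        (Inv S l ↔ CI Q T) ∧ ((∃ Λ, IsForm Q T l Λ) ↔ CI Q T) ∧ (InDom l ↔ CI Q T) ∧
        ((∃ a, IsNull a ∧ Vale.Agent.P352.H246D.Mom G l a) ↔ CI Q T) ∧
        ((∃ a, IsNull a ∧ Reg Q G l a) ↔ CI Q T) ∧
        ((∃ a, IsNull a ∧ ∀ f c, IsTest f → Val l (G a (tr T f Q.vac)) c → c = 0) ↔ CI Q T) ∧
        ∃ k : ℂ, (k = 0 ↔ CI Q T) ∧ ∀ κ : V → ℝ, Tst κ → (∀ᶠ x in 𝓝 (0 : V), κ x = 1) →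
          TwoDilaton Q J G l κ k ∧ (Crossing Q J G κ ↔ CI Q T) ∧
          ∀ (a b : V) (Φ Ψ : ℝ → ℝ) (m : Ix) (g : Fn), IsNull a → IsNull b →
            mdot a b = 1 → Tst Φ → Tst Ψ → IsTest g → Fwd g →
            ∫ y : V, ((a m * deriv (deriv (deriv Φ)) (mdot a y) *
              deriv (deriv Ψ) (mdot b y) - b m * deriv (deriv (deriv Ψ)) (mdot b y) *
              deriv (deriv Φ) (mdot a y) : ℝ) : ℂ) * g y ≠ 0 →
            (SameLim Q J G κ a b Φ Ψ m g ↔ CI Q T) :=
  main' hT hJ h

end Vale.Agent.Results.P352.OneConstant
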