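import Vale.Agent.P352.R2.H716.Main

namespace Vale.Agent.Results.P352.PointAction

open Vale.Agent.P352.GF Vale.Agent.P352.H246 Vale.Agent.P352.H496 Vale.Agent.P352.H15
open Vale.Agent.P352.H755 Vale.Agent.P352.H846 Vale.Agent.P352.H121 Vale.Agent.P352.R2.H716

/-- Let `T` be the stress tensor and `J` a virial current of the theory `Q`, and let the charges of
`T` on null hyperplanes exist. Then `Q` is conformally invariant (a scalar field `L` of dimension
two, local relative to any choice `Q₁` of local fields, improves `T` to a traceless stress tensor
whose conformal charges act on all fields as infinitesimal conformal transformations) if and only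
if the integrals `Th a` of the trace of `T` over null hyperplanes are operators on `D` whose
commutators `i[Th_a(a·x), T(x)]` with the stress tensor at the points of the null hyperplanes
(limits of thin slabs) are linear combinations of finitely many local fields `Φ i`. The fields are
fields of any enlargement of `Q`; the coefficients may depend on the null vector `a` in any way,
and the commutators may have contributions at infinity as long as these are given by the same
fields. -/
theorem result {D : Type*} [NormedAddCommGroup D] [InnerProductSpace ℂ D] (Q : Theory D)
    (T : Ix → Ix → Fld D) (hT : Q.IsStress T) (J : Ix → Fld D) (hJ : IsVirial Q T J)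
    (A : (V → V) → D → D) (K : V → D → D) (h : NullCharges Q T J A K) :
    (∃ L : Fld D, ∀ Q₁ : Theory D, IsEnl Q Q₁ → ∃ Q₂ : Theory D, IsEnl Q₁ Q₂ ∧
      Q₂.IsScalar L 2 ∧ Q₂.IsStress (improve T L) ∧ IsImpr Q₂ T (improve T L) ∧
      ConfAct Q₂ (improve T L)) ↔
    ∃ Th : V → D → D, TrCh Q T Th ∧ FinAct Q T Th :=
  main hT hJ h

end Vale.Agent.Results.P352.PointAction
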